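import Vale.Agent.P024.H92.Sunit
import Vale.Agent.P024.ALL.Spec

/-!
Lemma R.
-/

namespace Vale.Agent.P024.H92

open NumberField Finset IsDedekindDomain
open scoped NumberField

section

variable {F L : Type*} [Field F] [NumberField F] [Field L] [NumberField L] [Algebra F L]

/-- The action on the multiplicative group. -/
noncomputable def rho (σ : L ≃ₐ[F] L) : Lˣ →* Lˣ := Units.map (σ : L →* L)

omit [NumberField F] [NumberField L] in
theorem rho_coe (σ : L ≃ₐ[F] L) (x : Lˣ) : ((rho σ x : Lˣ) : L) = σ (x : L) := rfl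

omit [NumberField F] [NumberField L] in
theorem rho_mul (σ τ : L ≃ₐ[F] L) (x : Lˣ) : rho (σ * τ) x = rho σ (rho τ x) := by
  ext
  rfl

/-- Generators of the `h`-th powers of the primes above `l`, conjugate over `F`. -/
theorem exists_conj_gens [IsGalois F L] (l : ℕ) :
    ∃ (g : {P : HeightOneSpectrum (𝓞 F) // (l : 𝓞 F) ∈ P.asIdeal} → Lˣ)
      (π : HeightOneSpectrum (𝓞 L) → Lˣ),
      (∀ V, ∃ a : 𝓞 L, (π V : L) = a ∧ Ideal.span {a} = V.asIdeal ^ (classNumber L)) ∧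
      ∀ V : HeightOneSpectrum (𝓞 L), (l : 𝓞 L) ∈ V.asIdeal →
        ∃ P, ∃ σ : L ≃ₐ[F] L, π V = rho σ (g P) := by
  classical
  -- primes above
  have h1 : ∀ P : HeightOneSpectrum (𝓞 F), ∃ V : HeightOneSpectrum (𝓞 L),
      V.asIdeal.comap (algebraMap (𝓞 F) (𝓞 L)) = P.asIdeal := by
    intro P
    have := P.isPrime
    obtain ⟨Q, hQ, hQP⟩ := Ideal.exists_ideal_over_prime_of_isIntegral_of_isDomain
      (S := 𝓞 L) P.asIdeal (by
        rw [(RingHom.injective_iff_ker_eq_bot _).1 (FaithfulSMul.algebraMap_injective (𝓞 F) (𝓞 L))]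
        exact bot_le)
    refine ⟨⟨Q, hQ, ?_⟩, hQP⟩
    rintro rfl
    apply P.ne_bot
    rw [← hQP]
    exact Ideal.comap_bot_of_injective _ (FaithfulSMul.algebraMap_injective (𝓞 F) (𝓞 L))
  choose W hW using h1
  have h2 := fun V : HeightOneSpectrum (𝓞 L) => exists_gen V
  choose a ha0 ha using h2
  have haL : ∀ V, ((a V : 𝓞 L) : L) ≠ 0 := fun V => by
    simpa using ha0 V
  -- the contraction of a prime
  have h3 : ∀ V : HeightOneSpectrum (𝓞 L), (l : 𝓞 L) ∈ V.asIdeal →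
      ∃ P : {P : HeightOneSpectrum (𝓞 F) // (l : 𝓞 F) ∈ P.asIdeal},
      ∃ σ : L ≃ₐ[F] L, ∃ b : 𝓞 L, (b : L) = σ (a (W P.1) : L) ∧
        Ideal.span {b} = V.asIdeal ^ (classNumber L) := by
    intro V hV
    have hVp := V.isPrime
    have hne : V.asIdeal.comap (algebraMap (𝓞 F) (𝓞 L)) ≠ ⊥ := by
      intro h
      have := Ideal.eq_bot_of_comap_eq_bot h
      exact V.ne_bot this
    let P : HeightOneSpectrum (𝓞 F) :=
      ⟨V.asIdeal.comap (algebraMap (𝓞 F) (𝓞 L)), Ideal.comap_isPrime _ _, hne⟩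
    have hPl : (l : 𝓞 F) ∈ P.asIdeal := by
      change algebraMap (𝓞 F) (𝓞 L) (l : 𝓞 F) ∈ V.asIdeal
      rw [map_natCast]
      exact hV
    have m1 : (W P).asIdeal ∈ Ideal.primesOver P.asIdeal (𝓞 L) :=
      ⟨(W P).isPrime, ⟨(hW P).symm⟩⟩
    have m2 : V.asIdeal ∈ Ideal.primesOver P.asIdeal (𝓞 L) := ⟨V.isPrime, ⟨rfl⟩⟩
    obtain ⟨σ, hσ⟩ := Ideal.exists_comap_galRestrict_eq (𝓞 F) F L (𝓞 L) m1 m2
    set e : 𝓞 L ≃+* 𝓞 L := (galRestrict (𝓞 F) F L (𝓞 L) σ).toRingEquiv with he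
    have hσ' : V.asIdeal = (W P).asIdeal.map e.symm := by
      rw [← hσ]
      have := Ideal.map_symm (I := (W P).asIdeal) e
      rw [this]
      rfl
    refine ⟨⟨P, hPl⟩, σ⁻¹, e.symm (a (W P)), ?_, ?_⟩
    · have h5 : σ ((e.symm (a (W P)) : 𝓞 L) : L) = (a (W P) : L) := by
        have h6 := algebraMap_galRestrict_apply (𝓞 F) (K := F) (L := L) (B := 𝓞 L) σ
          (e.symm (a (W P)))
        have h7 : galRestrict (𝓞 F) F L (𝓞 L) σ (e.symm (a (W P))) = a (W P) :=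
          e.apply_symm_apply _
        rw [h7] at h6
        exact h6.symm
      rw [← h5]
      exact (σ.symm_apply_apply _).symm
    · rw [hσ', ← Ideal.map_pow, ← ha (W P), Ideal.map_span, Set.image_singleton]
  let pi : HeightOneSpectrum (𝓞 L) → Lˣ := fun V =>
    if h : (l : 𝓞 L) ∈ V.asIdeal then
      rho (h3 V h).choose_spec.choose (Units.mk0 (a (W (h3 V h).choose.1) : L) (haL _))
    else Units.mk0 (a V : L) (haL _)
  refine ⟨fun P => Units.mk0 (a (W P.1) : L) (haL _), pi, fun V => ?_, fun V hV => ?_⟩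
  · by_cases h : (l : 𝓞 L) ∈ V.asIdeal
    · obtain ⟨b, hb, hb'⟩ := (h3 V h).choose_spec.choose_spec
      refine ⟨b, ?_, hb'⟩
      rw [hb]
      change ((if h : (l : 𝓞 L) ∈ V.asIdeal then
        rho (h3 V h).choose_spec.choose (Units.mk0 (a (W (h3 V h).choose.1) : L) (haL _))
        else Units.mk0 (a V : L) (haL _) : Lˣ) : L) = _
      rw [dif_pos h, rho_coe, Units.val_mk0]
    · refine ⟨a V, ?_, ha V⟩
      change ((if h : (l : 𝓞 L) ∈ V.asIdeal then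
        rho (h3 V h).choose_spec.choose (Units.mk0 (a (W (h3 V h).choose.1) : L) (haL _))
        else Units.mk0 (a V : L) (haL _) : Lˣ) : L) = _
      rw [dif_neg h, Units.val_mk0]
  · refine ⟨(h3 V hV).choose, (h3 V hV).choose_spec.choose, ?_⟩
    change (if h : (l : 𝓞 L) ∈ V.asIdeal then
        rho (h3 V h).choose_spec.choose (Units.mk0 (a (W (h3 V h).choose.1) : L) (haL _))
        else Units.mk0 (a V : L) (haL _) : Lˣ) = _
    rw [dif_pos hV]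

end

/-- Lemma R. -/
theorem lemR {F L : Type*} [Field F] [NumberField F] [Field L] [NumberField L]
    [Algebra F L] [IsGalois F L] {l : ℕ} (hl : l.Prime) : ∃ M : ℕ, 0 < M ∧
    ∀ (k n : ℕ), 2 * Module.finrank ℚ F < n → ∀ (y : Fin n → L) (t : (L ≃ₐ[F] L) → ℤ),
    (∀ i, y i ≠ 0) → (∀ σ τ, ((l ^ k : ℕ) : ℤ) ∣ t (σ * τ) - t σ * t τ) →
    ((l ^ k : ℕ) : ℤ) ∣ t 1 - 1 →
    (∀ i σ, ∃ z : L, z ≠ 0 ∧ σ (y i) = y i ^ t σ * z ^ (l ^ k)) →
    (∀ i, ∀ V : HeightOneSpectrum (𝓞 L), (l : 𝓞 L) ∉ V.asIdeal →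
      ∃ j : ℤ, V.valuation L (y i) = WithZero.exp (((l ^ k : ℕ) : ℤ) * j)) →
    ∃ c : Fin n → ℤ, (∃ i, ¬ (l : ℤ) ∣ c i) ∧ ∃ z : L, z ≠ 0 ∧
      (∏ i, y i ^ c i) ^ M = z ^ (l ^ k) := by
  classical
  have : FiniteDimensional F L := Module.Finite.of_restrictScalars_finite ℚ F L
  obtain ⟨u, hu⟩ := units_finiteIndex (F := F) (L := L)
  obtain ⟨g, π, hπ, hg⟩ := exists_conj_gens (F := F) (L := L) l
  obtain ⟨hfin, hcard⟩ := finite_above F hl
  set N := (Subgroup.closure {x : (𝓞 L)ˣ | ∃ v, ∃ σ : L ≃ₐ[F] L, x = su σ (u v)}).index with hN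
  have hN0 : 0 < N := Nat.pos_of_ne_zero hu.index_ne_zero
  set J := InfinitePlace F ⊕ {P : HeightOneSpectrum (𝓞 F) // (l : 𝓞 F) ∈ P.asIdeal}
  have hJ : Nat.card J ≤ 2 * Module.finrank ℚ F := by
    rw [Nat.card_sum]
    have := card_infinitePlace_le F
    omega
  let gg : J → Lˣ := Sum.elim (fun v => Units.map (algebraMap (𝓞 L) L) (u v)) g
  have hcl : ∀ x : (𝓞 L)ˣ, x ^ N ∈
      Subgroup.closure {x : (𝓞 L)ˣ | ∃ v, ∃ σ : L ≃ₐ[F] L, x = su σ (u v)} := fun x =>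
    Subgroup.pow_index_mem _ x
  have hcl2 : ∀ x : (𝓞 L)ˣ, Units.map (algebraMap (𝓞 L) L : 𝓞 L →* L) x ^ N ∈
      Subgroup.closure {y : Lˣ | ∃ j, ∃ σ : L ≃ₐ[F] L, y = rho σ (gg j)} := by
    intro x
    rw [← map_pow]
    have h1 := Subgroup.mem_map_of_mem (Units.map (algebraMap (𝓞 L) L : 𝓞 L →* L)) (hcl x)
    rw [MonoidHom.map_closure] at h1
    refine Subgroup.closure_mono ?_ h1
    rintro _ ⟨_, ⟨v, σ, rfl⟩, rfl⟩
    refine ⟨Sum.inl v, σ, ?_⟩
    ext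
    rfl
  refine ⟨Fintype.card (L ≃ₐ[F] L) * (classNumber L * N), ?_, ?_⟩
  · refine Nat.mul_pos Fintype.card_pos (Nat.mul_pos (Nat.pos_of_ne_zero (classNumber_ne_zero L)) hN0)
  intro k n hn y t hy ht ht1 hyt hval
  set q := l ^ k with hq
  let Y : Fin n → Lˣ := fun i => Units.mk0 (y i) (hy i)
  have hY1 : ∀ i (σ : L ≃ₐ[F] L), Eqm q (rho σ (Y i)) (Y i ^ t σ) := by
    intro i σ
    obtain ⟨z, hz0, hz⟩ := hyt i σ
    refine ⟨Units.mk0 z hz0, ?_⟩
    ext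
    rw [rho_coe, Units.val_mul, Units.val_zpow_eq_zpow_val, Units.val_pow_eq_pow_val]
    exact hz
  have hM : ∀ i, ∃ x ∈ Subgroup.closure {y : Lˣ | ∃ j, ∃ σ : L ≃ₐ[F] L, y = rho σ (gg j)},
      Eqm q (Y i ^ (classNumber L * N)) x := by
    intro i
    choose m hm using fun V : HeightOneSpectrum (𝓞 L) => exists_exp V (y := (Y i : L)) (hy i)
    obtain ⟨S, ε, hε⟩ := exists_prod π hπ (Y i) m hm
    have hj : ∀ V : HeightOneSpectrum (𝓞 L), ∃ j : ℤ, (l : 𝓞 L) ∉ V.asIdeal → m V = (q : ℤ) * j := by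
      intro V
      by_cases hV : (l : 𝓞 L) ∈ V.asIdeal
      · exact ⟨0, fun h => absurd hV h⟩
      · obtain ⟨j, hj⟩ := hval i V hV
        refine ⟨j, fun _ => ?_⟩
        have h1 := (hm V).symm.trans hj
        exact WithZero.exp_injective h1
    choose j hj using hj
    refine ⟨Units.map (algebraMap (𝓞 L) L : 𝓞 L →* L) ε ^ N *
      (∏ V ∈ S.filter (fun V => (l : 𝓞 L) ∈ V.asIdeal), π V ^ (-m V)) ^ N, ?_, ?_⟩
    · refine Subgroup.mul_mem _ (hcl2 ε) (Subgroup.pow_mem _ (Subgroup.prod_mem _ fun V hV => ?_) _)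
      rw [Finset.mem_filter] at hV
      obtain ⟨P, σ, hP⟩ := hg V hV.2
      refine Subgroup.zpow_mem _ ?_ _
      exact Subgroup.subset_closure ⟨Sum.inr P, σ, hP⟩
    · refine ⟨(∏ V ∈ S.filter (fun V => ¬ (l : 𝓞 L) ∈ V.asIdeal), π V ^ (-j V)) ^ N, ?_⟩
      have hsplit := Finset.prod_filter_mul_prod_filter_not S
        (fun V : HeightOneSpectrum (𝓞 L) => (l : 𝓞 L) ∈ V.asIdeal) (fun V => π V ^ (-m V))
      have e : (∏ V ∈ S.filter (fun V => ¬ (l : 𝓞 L) ∈ V.asIdeal), π V ^ (-m V)) =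
          (∏ V ∈ S.filter (fun V => ¬ (l : 𝓞 L) ∈ V.asIdeal), π V ^ (-j V)) ^ q := by
        rw [← Finset.prod_pow]
        refine Finset.prod_congr rfl fun V hV => ?_
        rw [Finset.mem_filter] at hV
        rw [hj V hV.2, ← zpow_natCast, ← zpow_mul]
        congr 1
        ring
      rw [pow_mul, hε, ← hsplit, e, mul_pow, mul_pow, mul_assoc, ← pow_mul, ← pow_mul,
        mul_comm q N]
  obtain ⟨c, hc, z, hz⟩ := rel_main (ρ := rho) (fun σ τ x => rho_mul σ τ x) ht ht1 gg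
    (lt_of_le_of_lt hJ hn) hl (classNumber L * N) Y hY1 hM
  refine ⟨c, hc, z, z.ne_zero, ?_⟩
  have h1 := congrArg (fun x : Lˣ => (x : L)) hz
  simp only [Units.val_pow_eq_pow_val, Units.coe_prod, Units.val_zpow_eq_zpow_val] at h1
  exact h1

/-- (D1) -/
theorem propD1.{u} : ALL.PropD1.{u} := by
  intro F L _ _ _ _ _ _ l hl
  exact lemR hl

end Vale.Agent.P024.H92
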