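import Mathlib

/-!
Lemma R, algebraic part: in a group with an action of a finite group `G`, elements on which `G`
acts, modulo `q`-th powers, through `t` are multiplicatively dependent modulo `q`-th powers.
-/

namespace Vale.Agent.P024.H92

open Finset

/-- An integer relation between more than `|J|` integer vectors, not divisible by `l`. -/
theorem exists_rel {J : Type*} [Finite J] {n : ℕ} (hn : Nat.card J < n) (A : Fin n → J → ℤ) {l : ℕ}
    (hl : l.Prime) : ∃ c : Fin n → ℤ, (∃ i, ¬ (l : ℤ) ∣ c i) ∧ ∀ j, ∑ i, c i * A i j = 0 := by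
  classical
  have := Fintype.ofFinite J
  rw [Nat.card_eq_fintype_card] at hn
  -- a nonzero relation
  obtain ⟨d, hd0, hd⟩ : ∃ d : Fin n → ℤ, d ≠ 0 ∧ ∀ j, ∑ i, d i * A i j = 0 := by
    rcases Nat.eq_zero_or_pos (Fintype.card J) with h0 | h0
    · have : IsEmpty J := Fintype.card_eq_zero_iff.1 h0
      refine ⟨fun _ => 1, ?_, fun j => isEmptyElim j⟩
      intro h
      have := congrFun h ⟨0, by omega⟩
      simp at this
    · obtain ⟨t, ht0, ht, -⟩ := Int.Matrix.exists_ne_zero_int_vec_norm_le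
        (Matrix.of fun (j : J) (i : Fin n) => A i j) (by simpa using hn) h0
      refine ⟨t, ht0, fun j => ?_⟩
      have h := congrFun ht j
      simp only [Matrix.mulVec, dotProduct, Matrix.of_apply, Pi.zero_apply] at h
      rw [← h]
      exact Finset.sum_congr rfl fun i _ => mul_comm _ _
  have hne : (univ : Finset (Fin n)).Nonempty := by
    by_contra hcon
    apply hd0
    ext i
    exact absurd ⟨i, mem_univ i⟩ hcon
  obtain ⟨g, hg, hg1⟩ := Finset.extract_gcd d hne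
  have hgcd : (univ : Finset (Fin n)).gcd d ≠ 0 := by
    intro h0
    apply hd0
    ext i
    rw [hg i (mem_univ i), h0, zero_mul]
    rfl
  refine ⟨g, ?_, fun j => ?_⟩
  · by_contra hcon
    push Not at hcon
    have h1 : (l : ℤ) ∣ (univ : Finset (Fin n)).gcd g := Finset.dvd_gcd fun i _ => hcon i
    rw [hg1] at h1
    have h2 : l ∣ 1 := by exact_mod_cast h1
    exact hl.one_lt.ne' (Nat.dvd_one.1 h2)
  · have h := hd j
    have h2 : ∑ i, d i * A i j = (univ : Finset (Fin n)).gcd d * ∑ i, g i * A i j := by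
      rw [Finset.mul_sum]
      refine Finset.sum_congr rfl fun i _ => ?_
      rw [hg i (mem_univ i)]
      ring
    rw [h2] at h
    rcases mul_eq_zero.1 h with h | h
    · exact absurd h hgcd
    · exact h

variable {X : Type*} [CommGroup X]

/-- Equality modulo `q`-th powers. -/
def Eqm (q : ℕ) (x y : X) : Prop := ∃ z : X, x = y * z ^ q

theorem Eqm.refl {q : ℕ} (x : X) : Eqm q x x := ⟨1, by simp⟩

theorem Eqm.of_eq {q : ℕ} {x y : X} (h : x = y) : Eqm q x y := h ▸ Eqm.refl x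

theorem Eqm.symm {q : ℕ} {x y : X} (h : Eqm q x y) : Eqm q y x := by
  obtain ⟨z, hz⟩ := h
  exact ⟨z⁻¹, by rw [hz, inv_pow, mul_assoc, mul_inv_cancel, mul_one]⟩

theorem Eqm.trans {q : ℕ} {x y w : X} (h : Eqm q x y) (h' : Eqm q y w) : Eqm q x w := by
  obtain ⟨z, hz⟩ := h
  obtain ⟨z', hz'⟩ := h'
  exact ⟨z' * z, by rw [hz, hz', mul_pow, mul_assoc]⟩

theorem Eqm.mul {q : ℕ} {x y x' y' : X} (h : Eqm q x y) (h' : Eqm q x' y') :
    Eqm q (x * x') (y * y') := by
  obtain ⟨z, hz⟩ := h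
  obtain ⟨z', hz'⟩ := h'
  exact ⟨z * z', by rw [hz, hz', mul_pow, mul_mul_mul_comm]⟩

theorem Eqm.zpow {q : ℕ} {x y : X} (h : Eqm q x y) (a : ℤ) : Eqm q (x ^ a) (y ^ a) := by
  obtain ⟨z, hz⟩ := h
  refine ⟨z ^ a, ?_⟩
  rw [hz, mul_zpow, ← zpow_natCast, ← zpow_natCast, ← zpow_mul, ← zpow_mul, mul_comm (q : ℤ)]

theorem Eqm.pow {q : ℕ} {x y : X} (h : Eqm q x y) (a : ℕ) : Eqm q (x ^ a) (y ^ a) := by
  have := h.zpow (a : ℤ)
  simpa using this

theorem Eqm.inv {q : ℕ} {x y : X} (h : Eqm q x y) : Eqm q x⁻¹ y⁻¹ := by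
  have := h.zpow (-1)
  simpa using this

theorem Eqm.map {q : ℕ} {Y : Type*} [CommGroup Y] {x y : X} (f : X →* Y) (h : Eqm q x y) :
    Eqm q (f x) (f y) := by
  obtain ⟨z, hz⟩ := h
  exact ⟨f z, by rw [hz, map_mul, map_pow]⟩

theorem Eqm.prod {q : ℕ} {ι : Type*} (s : Finset ι) {f g : ι → X}
    (h : ∀ i ∈ s, Eqm q (f i) (g i)) : Eqm q (∏ i ∈ s, f i) (∏ i ∈ s, g i) := by
  classical
  induction s using Finset.induction_on with
  | empty => exact Eqm.refl _
  | insert a s ha ih =>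
    rw [Finset.prod_insert ha, Finset.prod_insert ha]
    exact (h a (Finset.mem_insert_self _ _)).mul
      (ih fun i hi => h i (Finset.mem_insert_of_mem hi))

theorem Eqm.zpow_congr {q : ℕ} (x : X) {a b : ℤ} (h : (q : ℤ) ∣ a - b) :
    Eqm q (x ^ a) (x ^ b) := by
  obtain ⟨c, hc⟩ := h
  refine ⟨x ^ c, ?_⟩
  rw [← zpow_natCast, ← zpow_mul, ← zpow_add]
  congr 1
  rw [mul_comm c]
  omega

theorem prod_zpow_sum {ι : Type*} (s : Finset ι) (f : ι → ℤ) (x : X) :
    ∏ i ∈ s, x ^ f i = x ^ ∑ i ∈ s, f i := by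
  classical
  induction s using Finset.induction_on with
  | empty => simp
  | insert a s ha ih => rw [Finset.prod_insert ha, Finset.sum_insert ha, ih, zpow_add]

variable {G : Type*} [Group G] [Fintype G] (ρ : G → X →* X)

/-- `∏_σ σ(x)^{t(σ⁻¹)}` -/
def et (t : G → ℤ) : X →* X where
  toFun x := ∏ σ, ρ σ x ^ t σ⁻¹
  map_one' := by simp
  map_mul' x y := by
    rw [← Finset.prod_mul_distrib]
    exact Finset.prod_congr rfl fun σ _ => by rw [map_mul, mul_zpow]

theorem et_apply (t : G → ℤ) (x : X) : et ρ t x = ∏ σ, ρ σ x ^ t σ⁻¹ := rfl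

variable {ρ} (hρ : ∀ σ τ x, ρ (σ * τ) x = ρ σ (ρ τ x)) {q : ℕ} {t : G → ℤ}
  (ht : ∀ σ τ, (q : ℤ) ∣ t (σ * τ) - t σ * t τ) (ht1 : (q : ℤ) ∣ t 1 - 1)

include hρ ht in
theorem et_ρ (τ : G) (x : X) : Eqm q (et ρ t (ρ τ x)) (et ρ t x ^ t τ) := by
  have e : et ρ t (ρ τ x) = ∏ σ, ρ σ x ^ t (τ * σ⁻¹) := by
    rw [et_apply, ← Equiv.prod_comp (Equiv.mulRight τ⁻¹)]
    refine (Finset.prod_congr rfl fun σ _ => ?_)
    rw [Equiv.coe_mulRight, ← hρ, inv_mul_cancel_right, mul_inv_rev, inv_inv]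
  rw [e, et_apply, ← Finset.prod_zpow]
  refine Eqm.prod _ fun σ _ => ?_
  rw [← zpow_mul]
  refine Eqm.zpow_congr _ ?_
  rw [mul_comm (t σ⁻¹)]
  exact ht τ σ⁻¹

include ht ht1 in
theorem et_eigen {y : X} (hy : ∀ σ, Eqm q (ρ σ y) (y ^ t σ)) :
    Eqm q (et ρ t y) (y ^ Fintype.card G) := by
  rw [et_apply]
  have e : y ^ Fintype.card G = ∏ _σ : G, y := by
    rw [Finset.prod_const, Finset.card_univ]
  rw [e]
  refine Eqm.prod _ fun σ _ => ?_
  refine ((hy σ).zpow _).trans ?_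
  rw [← zpow_mul]
  nth_rewrite 2 [← zpow_one y]
  refine Eqm.zpow_congr _ ?_
  have h := ht σ σ⁻¹
  rw [mul_inv_cancel] at h
  have h2 := dvd_sub ht1 h
  have e2 : t 1 - 1 - (t 1 - t σ * t σ⁻¹) = t σ * t σ⁻¹ - 1 := by ring
  rwa [e2] at h2

include hρ ht in
theorem et_closure {J : Type*} [Fintype J] (g : J → X) {x : X}
    (hx : x ∈ Subgroup.closure {y | ∃ j σ, y = ρ σ (g j)}) :
    ∃ A : J → ℤ, Eqm q (et ρ t x) (∏ j, et ρ t (g j) ^ A j) := by
  classical
  induction hx using Subgroup.closure_induction with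
  | mem x hx =>
    obtain ⟨j, σ, rfl⟩ := hx
    refine ⟨fun i => if i = j then t σ else 0, ?_⟩
    have e : (∏ i, et ρ t (g i) ^ (if i = j then t σ else 0)) = et ρ t (g j) ^ t σ := by
      rw [Finset.prod_eq_single j]
      · rw [if_pos rfl]
      · intro i _ hi
        rw [if_neg hi, zpow_zero]
      · intro h; exact absurd (mem_univ _) h
    rw [e]
    exact et_ρ hρ ht σ (g j)
  | one => exact ⟨fun _ => 0, by simpa using Eqm.refl (q := q) (1 : X)⟩
  | mul x y _ _ ihx ihy =>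
    obtain ⟨A, hA⟩ := ihx
    obtain ⟨B, hB⟩ := ihy
    refine ⟨fun j => A j + B j, ?_⟩
    have e : (∏ j, et ρ t (g j) ^ (A j + B j)) =
        (∏ j, et ρ t (g j) ^ A j) * ∏ j, et ρ t (g j) ^ B j := by
      rw [← Finset.prod_mul_distrib]
      exact Finset.prod_congr rfl fun j _ => zpow_add _ _ _
    rw [e, map_mul]
    exact hA.mul hB
  | inv x _ ih =>
    obtain ⟨A, hA⟩ := ih
    refine ⟨fun j => -A j, ?_⟩
    have e : (∏ j, et ρ t (g j) ^ (-A j)) = (∏ j, et ρ t (g j) ^ A j)⁻¹ := by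
      rw [← Finset.prod_inv_distrib]
      exact Finset.prod_congr rfl fun j _ => zpow_neg _ _
    rw [e, map_inv]
    exact hA.inv

include hρ ht ht1 in
/-- The algebraic part of Lemma R. -/
theorem rel_main {J : Type*} [Finite J] (g : J → X) {n : ℕ} (hn : Nat.card J < n) {l : ℕ}
    (hl : l.Prime) (M : ℕ) (y : Fin n → X) (hy : ∀ i σ, Eqm q (ρ σ (y i)) (y i ^ t σ))
    (hM : ∀ i, ∃ x ∈ Subgroup.closure {y | ∃ j σ, y = ρ σ (g j)}, Eqm q (y i ^ M) x) :
    ∃ c : Fin n → ℤ, (∃ i, ¬ (l : ℤ) ∣ c i) ∧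
      ∃ z : X, (∏ i, y i ^ c i) ^ (Fintype.card G * M) = z ^ q := by
  classical
  have := Fintype.ofFinite J
  choose x hx hxy using hM
  have h1 := fun i => et_closure hρ ht g (hx i)
  choose A hA using h1
  obtain ⟨c, hc, hcA⟩ := exists_rel hn A hl
  refine ⟨c, hc, ?_⟩
  have key : ∀ i, Eqm q (y i ^ (Fintype.card G * M)) (∏ j, et ρ t (g j) ^ A i j) := by
    intro i
    rw [pow_mul]
    refine ((et_eigen ht ht1 (hy i)).symm.pow M).trans ?_
    rw [← map_pow]
    exact ((hxy i).map (et ρ t)).trans (hA i)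
  have h2 : Eqm q ((∏ i, y i ^ c i) ^ (Fintype.card G * M)) 1 := by
    rw [← Finset.prod_pow]
    have e1 : ∀ i, (y i ^ c i) ^ (Fintype.card G * M) =
        (y i ^ (Fintype.card G * M)) ^ c i := by
      intro i
      rw [← zpow_natCast, ← zpow_natCast, ← zpow_mul, ← zpow_mul, mul_comm]
    rw [Finset.prod_congr rfl fun i _ => e1 i]
    refine (Eqm.prod univ fun i _ => (key i).zpow (c i)).trans (Eqm.of_eq ?_)
    have e2 : ∀ i, (∏ j, et ρ t (g j) ^ A i j) ^ c i = ∏ j, et ρ t (g j) ^ (c i * A i j) := by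
      intro i
      rw [← Finset.prod_zpow]
      refine Finset.prod_congr rfl fun j _ => ?_
      rw [← zpow_mul, mul_comm]
    rw [Finset.prod_congr rfl fun i _ => e2 i, Finset.prod_comm]
    refine Finset.prod_eq_one fun j _ => ?_
    rw [prod_zpow_sum, hcA, zpow_zero]
  obtain ⟨z, hz⟩ := h2
  exact ⟨z, by rw [hz, one_mul]⟩

end Vale.Agent.P024.H92
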