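import Mathlib

/-!
Lemma R, units: the conjugates of one unit for every infinite place of `F` generate a subgroup of
finite index of the unit group of a Galois extension `L` of `F`.
-/

namespace Vale.Agent.P024.H92

open NumberField NumberField.Units NumberField.Units.dirichletUnitTheorem Finset
open scoped NumberField

variable {F L : Type*} [Field F] [NumberField F] [Field L] [NumberField L] [Algebra F L]

/-- The action of an automorphism on the units of the ring of integers. -/
noncomputable def su (σ : L ≃ₐ[F] L) : (𝓞 L)ˣ →* (𝓞 L)ˣ :=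
  Units.map ((RingOfIntegers.mapRingEquiv σ.toRingEquiv : 𝓞 L ≃+* 𝓞 L) : 𝓞 L →* 𝓞 L)

theorem su_coe (σ : L ≃ₐ[F] L) (u : (𝓞 L)ˣ) : ((su σ u : (𝓞 L)ˣ) : L) = σ (u : L) := rfl

theorem exists_unit_family [IsGalois F L] : ∃ g : InfinitePlace F → (𝓞 L)ˣ,
    ∀ w : InfinitePlace L, ∃ σ : L ≃ₐ[F] L, ∀ w' : InfinitePlace L, w' ≠ w →
      Real.log (w' (σ (g (w.comap (algebraMap F L)) : L))) < 0 := by
  have h1 : ∀ v : InfinitePlace F, ∃ w : InfinitePlace L, w.comap (algebraMap F L) = v :=
    fun v => InfinitePlace.comap_surjective v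
  choose W hW using h1
  have h2 := fun v => exists_unit L (W v)
  choose g hg using h2
  refine ⟨g, fun w => ?_⟩
  obtain ⟨σ, hσ⟩ := InfinitePlace.exists_smul_eq_of_comap_eq
    (w := W (w.comap (algebraMap F L))) (w' := w) (hW _)
  refine ⟨σ, fun w' hw' => ?_⟩
  have h3 : (σ⁻¹ • w') ≠ W (w.comap (algebraMap F L)) := by
    intro h
    apply hw'
    rw [← hσ, ← h, smul_inv_smul]
  have h4 := hg _ _ h3
  have h5 : (σ⁻¹ • w') ((g (w.comap (algebraMap F L)) : (𝓞 L)ˣ) : L) =
      w' (σ (g (w.comap (algebraMap F L)) : L)) := rfl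
  rwa [h5] at h4

theorem maxRank_of_family (e : InfinitePlace L → (𝓞 L)ˣ)
    (he : ∀ w w' : InfinitePlace L, w' ≠ w → Real.log (w' (e w : L)) < 0) :
    IsMaxRank (fun i => e (equivFinRank L i : InfinitePlace L)) := by
  classical
  let N : Matrix {w : InfinitePlace L // w ≠ w₀} {w : InfinitePlace L // w ≠ w₀} ℝ :=
    Matrix.of fun w x => logEmbedding L (Additive.ofMul (e w)) x
  have hN : ∀ w x, N w x = logEmbedding L (Additive.ofMul (e w)) x := fun _ _ => rfl
  have hdet : N.det ≠ 0 := by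
    refine det_ne_zero_of_sum_row_lt_diag (fun w ↦ ?_)
    simp_rw [Real.norm_eq_abs, hN]
    rw [← sub_pos, sum_congr rfl (fun x hx ↦ abs_of_neg ?_), sum_neg_distrib, sub_neg_eq_add,
      sum_erase_eq_sub (mem_univ _), ← add_comm_sub]
    · refine add_pos_of_nonneg_of_pos ?_ ?_
      · rw [sub_nonneg]
        exact le_abs_self _
      · rw [sum_logEmbedding_component (e w)]
        refine mul_pos_of_neg_of_neg ?_ (he _ _ w.prop.symm)
        rw [InfinitePlace.mult]; split_ifs <;> norm_num
    · refine mul_neg_of_pos_of_neg ?_ (he _ _ ?_)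
      · rw [InfinitePlace.mult]; split_ifs <;> norm_num
      · exact Subtype.ext_iff.not.mp (ne_of_mem_erase hx)
  have hli : LinearIndependent ℝ
      (fun w : {w : InfinitePlace L // w ≠ w₀} => logEmbedding L (Additive.ofMul (e w))) :=
    Matrix.linearIndependent_rows_of_det_ne_zero hdet
  exact hli.comp (equivFinRank L) (equivFinRank L).injective

theorem units_finiteIndex [IsGalois F L] : ∃ g : InfinitePlace F → (𝓞 L)ˣ,
    (Subgroup.closure {u : (𝓞 L)ˣ | ∃ v, ∃ σ : L ≃ₐ[F] L, u = su σ (g v)}).FiniteIndex := by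
  obtain ⟨g, hg⟩ := exists_unit_family (F := F) (L := L)
  choose σ hσ using hg
  refine ⟨g, ?_⟩
  have h := isMaxRank_iff_closure_finiteIndex.1 (maxRank_of_family
    (fun w => su (σ w) (g (w.comap (algebraMap F L)))) (fun w w' h => hσ w w' h))
  refine @Subgroup.finiteIndex_of_le _ _ _ _ h ?_
  rw [Subgroup.closure_le]
  rintro _ ⟨i, rfl⟩
  exact Subgroup.subset_closure ⟨_, _, rfl⟩

end Vale.Agent.P024.H92
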