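import Vale.Agent.P024.H92.Rel
import Vale.Agent.P024.H92.Unit

/-!
Lemma R, ideals: an element all of whose valuations outside `l` are divisible by `q` is, up to
powers, a product of conjugates of finitely many elements.
-/

namespace Vale.Agent.P024.H92

open NumberField Finset IsDedekindDomain
open scoped NumberField

section card

variable (F : Type*) [Field F] [NumberField F]

theorem card_infinitePlace_le : Nat.card (InfinitePlace F) ≤ Module.finrank ℚ F := by
  classical
  rw [Nat.card_eq_fintype_card, InfinitePlace.card_eq_nrRealPlaces_add_nrComplexPlaces,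
    ← InfinitePlace.card_add_two_mul_card_eq_rank F]
  omega

theorem finite_above {l : ℕ} (hl : l.Prime) :
    Finite {P : HeightOneSpectrum (𝓞 F) // (l : 𝓞 F) ∈ P.asIdeal} ∧
      Nat.card {P : HeightOneSpectrum (𝓞 F) // (l : 𝓞 F) ∈ P.asIdeal} ≤ Module.finrank ℚ F := by
  classical
  set p : Ideal ℤ := Ideal.span {(l : ℤ)} with hp
  have hprime : Prime (l : ℤ) := Nat.prime_iff_prime_int.1 hl
  have hp0 : p ≠ ⊥ := by
    rw [hp, Ne, Ideal.span_singleton_eq_bot]
    exact hprime.ne_zero
  have hpp : p.IsPrime := (Ideal.span_singleton_prime hprime.ne_zero).2 hprime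
  have hpm : p.IsMaximal := hpp.isMaximal hp0
  let f : {P : HeightOneSpectrum (𝓞 F) // (l : 𝓞 F) ∈ P.asIdeal} →
      IsDedekindDomain.primesOverFinset p (𝓞 F) := fun P =>
    ⟨P.1.asIdeal, by
      rw [IsDedekindDomain.mem_primesOverFinset_iff hp0]
      refine ⟨P.1.isPrime, ⟨?_⟩⟩
      refine (hpm.eq_of_le ?_ ?_)
      · exact (Ideal.comap_isPrime _ _).ne_top
      · rw [hp, Ideal.span_singleton_le_iff_mem]
        change algebraMap ℤ (𝓞 F) (l : ℤ) ∈ P.1.asIdeal
        rw [map_natCast]
        exact P.2⟩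
  have hf : Function.Injective f := by
    intro P Q h
    have h2 := congrArg (fun x : IsDedekindDomain.primesOverFinset p (𝓞 F) => x.1) h
    exact Subtype.ext (HeightOneSpectrum.ext h2)
  refine ⟨Finite.of_injective f hf, ?_⟩
  have h1 := Nat.card_le_card_of_injective f hf
  have h2 := Ideal.card_primesOverFinset_le_finrank (S := 𝓞 F) ℚ F hp0
  have h3 : Nat.card (IsDedekindDomain.primesOverFinset p (𝓞 F)) =
    (IsDedekindDomain.primesOverFinset p (𝓞 F)).card := Nat.card_eq_card_toFinset _ |>.trans (by simp)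
  rw [h3] at h1
  exact h1.trans h2

end card

section gen

variable {K : Type*} [Field K] [NumberField K]

/-- The class number annihilates the class group. -/
theorem exists_gen (V : HeightOneSpectrum (𝓞 K)) : ∃ a : 𝓞 K, a ≠ 0 ∧
    Ideal.span {a} = V.asIdeal ^ (classNumber K) := by
  classical
  have hmem : V.asIdeal ∈ nonZeroDivisors (Ideal (𝓞 K)) := by
    rw [mem_nonZeroDivisors_iff_ne_zero]
    exact V.ne_bot
  have h1 : ClassGroup.mk0 (⟨V.asIdeal, hmem⟩ ^ classNumber K) = 1 := by
    rw [map_pow, classNumber]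
    exact pow_card_eq_one
  rw [ClassGroup.mk0_eq_one_iff] at h1
  obtain ⟨a, ha⟩ := h1
  have ha' : V.asIdeal ^ classNumber K = Ideal.span {a} := ha
  refine ⟨a, ?_, ha'.symm⟩
  rintro rfl
  rw [Ideal.span_singleton_zero] at ha'
  exact V.ne_bot (pow_eq_zero_iff (classNumber_ne_zero K) |>.1 ha')

theorem val_gen {V : HeightOneSpectrum (𝓞 K)} {a : 𝓞 K} {h : ℕ}
    (ha : Ideal.span {a} = V.asIdeal ^ h) :
    V.valuation K (a : K) = WithZero.exp (-(h : ℤ)) := by
  rw [HeightOneSpectrum.valuation_of_algebraMap]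
  apply le_antisymm
  · rw [HeightOneSpectrum.intValuation_le_pow_iff_mem, ← ha]
    exact Ideal.mem_span_singleton_self a
  · by_contra hcon
    rw [not_le] at hcon
    have hne : V.intValuation a ≠ 0 := by
      apply V.intValuation_ne_zero
      rintro rfl
      rw [Ideal.span_singleton_zero] at ha
      exact pow_ne_zero h V.ne_bot ha.symm
    have h2 : V.intValuation a ≤ WithZero.exp (-((h + 1 : ℕ) : ℤ)) := by
      obtain ⟨k, hk⟩ : ∃ k : ℤ, V.intValuation a = WithZero.exp k :=
        ⟨WithZero.log (V.intValuation a), (WithZero.exp_log hne).symm⟩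
      rw [hk, WithZero.exp_lt_exp] at hcon
      rw [hk, WithZero.exp_le_exp]
      push_cast
      omega
    rw [HeightOneSpectrum.intValuation_le_pow_iff_mem, ← Ideal.span_singleton_le_iff_mem, ha] at h2
    exact absurd h2 (not_le_of_gt (Ideal.pow_succ_lt_pow V.ne_bot h))

theorem val_gen_ne {V V' : HeightOneSpectrum (𝓞 K)} (hV : V' ≠ V) {a : 𝓞 K} {h : ℕ}
    (ha : Ideal.span {a} = V.asIdeal ^ h) :
    V'.valuation K (a : K) = 1 := by
  have h1 : ¬ V'.valuation K (a : K) < 1 := by
    rw [HeightOneSpectrum.valuation_lt_one_iff_mem]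
    intro hmem
    have h2 : V.asIdeal ^ h ≤ V'.asIdeal := by
      rw [← ha, Ideal.span_singleton_le_iff_mem]
      exact hmem
    have h3 : V.asIdeal ≤ V'.asIdeal := Ideal.IsPrime.le_of_pow_le h2
    exact hV (HeightOneSpectrum.ext (V.isMaximal.eq_of_le V'.isPrime.ne_top h3)).symm
  exact le_antisymm (HeightOneSpectrum.valuation_le_one V' a) (not_lt.1 h1)

theorem exists_exp (V : HeightOneSpectrum (𝓞 K)) {y : K} (hy : y ≠ 0) :
    ∃ m : ℤ, V.valuation K y = WithZero.exp m := by
  have h : V.valuation K y ≠ 0 := (Valuation.ne_zero_iff _).2 hy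
  exact ⟨WithZero.log (V.valuation K y), (WithZero.exp_log h).symm⟩

/-- The power `y ^ h` is a unit times a product of powers of generators. -/
theorem exists_prod (π : HeightOneSpectrum (𝓞 K) → Kˣ)
    (hπ : ∀ V, ∃ a : 𝓞 K, (π V : K) = a ∧ Ideal.span {a} = V.asIdeal ^ (classNumber K)) (y : Kˣ)
    (m : HeightOneSpectrum (𝓞 K) → ℤ) (hm : ∀ V, V.valuation K (y : K) = WithZero.exp (m V)) :
    ∃ S : Finset (HeightOneSpectrum (𝓞 K)), ∃ u : (𝓞 K)ˣ,
      y ^ (classNumber K) = Units.map (algebraMap (𝓞 K) K) u * ∏ V ∈ S, π V ^ (-m V) := by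
  classical
  have hv : ∀ V V' : HeightOneSpectrum (𝓞 K), V'.valuation K (π V : K) =
      if V' = V then WithZero.exp (-(classNumber K : ℤ)) else 1 := by
    intro V V'
    obtain ⟨a, ha, ha'⟩ := hπ V
    rw [ha]
    split_ifs with h
    · subst h; exact val_gen ha'
    · exact val_gen_ne h ha'
  have hfin : {V : HeightOneSpectrum (𝓞 K) | m V ≠ 0}.Finite := by
    have f1 := HeightOneSpectrum.Support.finite (𝓞 K) (y : K)
    have f2 := HeightOneSpectrum.Support.finite (𝓞 K) ((y⁻¹ : Kˣ) : K)
    refine (f1.union f2).subset ?_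
    intro V hV
    have hV' : m V ≠ 0 := hV
    rcases lt_or_gt_of_ne hV' with h | h
    · right
      change 1 < V.valuation K ((y⁻¹ : Kˣ) : K)
      rw [Units.val_inv_eq_inv_val, map_inv₀, hm, ← WithZero.exp_neg, ← WithZero.exp_zero,
        WithZero.exp_lt_exp]
      omega
    · left
      change 1 < V.valuation K (y : K)
      rw [hm, ← WithZero.exp_zero, WithZero.exp_lt_exp]
      exact h
  set S := hfin.toFinset with hS
  set z : Kˣ := ∏ V ∈ S, π V ^ (-m V) with hz
  have hzv : ∀ V' : HeightOneSpectrum (𝓞 K), V'.valuation K (z : K) = WithZero.exp ((classNumber K : ℤ) * m V') := by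
    intro V'
    rw [hz, Units.coe_prod, map_prod]
    by_cases hV : V' ∈ S
    · rw [Finset.prod_eq_single V']
      · rw [Units.val_zpow_eq_zpow_val, map_zpow₀, hv, if_pos rfl, ← WithZero.exp_zsmul]
        congr 1
        rw [smul_eq_mul]
        ring
      · intro V _ hne
        rw [Units.val_zpow_eq_zpow_val, map_zpow₀, hv, if_neg (Ne.symm hne), one_zpow]
      · intro h; exact absurd hV h
    · have hm0 : m V' = 0 := by
        by_contra hcon
        exact hV (by rw [hS, Set.Finite.mem_toFinset]; exact hcon)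
      rw [hm0, mul_zero, WithZero.exp_zero]
      refine Finset.prod_eq_one fun V hVS => ?_
      have hne : V' ≠ V := fun h => hV (h ▸ hVS)
      rw [Units.val_zpow_eq_zpow_val, map_zpow₀, hv, if_neg hne, one_zpow]
  have hone : ∀ V' : HeightOneSpectrum (𝓞 K), V'.valuation K ((y ^ classNumber K / z : Kˣ) : K) = 1 := by
    intro V'
    rw [Units.val_div_eq_div_val, map_div₀, hzv, Units.val_pow_eq_pow_val, map_pow, hm,
      ← WithZero.exp_nsmul, nsmul_eq_mul, div_self WithZero.exp_ne_zero]
  have hone' : ∀ V' : HeightOneSpectrum (𝓞 K), V'.valuation K (((y ^ classNumber K / z)⁻¹ : Kˣ) : K) = 1 := by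
    intro V'
    rw [Units.val_inv_eq_inv_val, map_inv₀, hone, inv_one]
  obtain ⟨b, hb⟩ := HeightOneSpectrum.mem_integers_of_valuation_le_one K _
    (fun V' => (hone V').le)
  obtain ⟨b', hb'⟩ := HeightOneSpectrum.mem_integers_of_valuation_le_one K _
    (fun V' => (hone' V').le)
  have hbb : b * b' = 1 := by
    apply FaithfulSMul.algebraMap_injective (𝓞 K) K
    rw [map_mul, hb, hb', map_one, Units.mul_inv]
  refine ⟨S, ⟨b, b', hbb, by rw [mul_comm, hbb]⟩, ?_⟩
  ext
  have : (y ^ classNumber K : Kˣ) = (y ^ classNumber K / z) * z := by rw [div_mul_cancel]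
  rw [this, Units.val_mul, Units.val_mul, ← hb]
  rfl

end gen

end Vale.Agent.P024.H92
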